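import Vale.Agent.N170.Hit

open Filter Topology Vale.Agent.P170 Vale.Agent.N170

/-- For every `k ≥ 3` there is `α > 0`, equal to every limiting threshold of random `k`-SAT, with
`∑ m, P(m) (1 - P(m)) = O(√n)` and `∑ m, P(m) ≤ α n + O(√n)`. -/
theorem Vale.Agent.Results.P170.A0Models.result (k : ℕ) (hk : 3 ≤ k) :
    ∃ α : ℝ, 0 < α ∧ (∀ β : ℝ, IsLimitingThreshold k β → β = α) ∧
      ∃ B : ℝ, ∀ n : ℕ, k ≤ n → Summable (satProb k n) ∧
        ∑' m, satProb k n m * (1 - satProb k n m) ≤ B * Real.sqrt n ∧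
        ∑' m, satProb k n m ≤ α * n + B * Real.sqrt n := by
  obtain ⟨α, h⟩ := main k hk
  exact ⟨α, h.1, fun _ h' => threshold_unique h' h, (hitting hk h).1⟩
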